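import Vale.Agent.P181.DG.Defs
import Vale.Agent.P181.DG4a.Cp

set_option autoImplicit false

/-!
# P181, NS: Foulkes' inequality for all `a ≤ b` and at most `2 a` cells below the first row

`TN p q` = dimension of the translation invariants in `p` points, of degree `≤ q` in each point.
`QN x n` = the same for one frozen column of degree `x` and `n` columns.
-/

open MvPolynomial

namespace Vale.Agent.P181.NS

open Vale.Agent.P181.T4 (HW ex low)
open Vale.Agent.P181.H280 (plethMult)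
open Vale.Agent.P181.SZ (TI)
open Vale.Agent.P181.SZR3 (colD)
open Vale.Agent.P181.DG (PKT)
open Vale.Agent.P181.PL (dn)

/-- One large column of degree `x`, and `n` small columns (symmetric, translation invariant). -/
noncomputable def QS (m : ℕ) (mu : Fin m → ℕ) (x n : ℕ) :
    Submodule ℂ (MvPolynomial (Fin m × (Unit ⊕ Fin n)) ℂ) :=
  PKT m (∑ i, mu i + 1) Unit (fun _ => x) n mu

noncomputable def QN (m : ℕ) (mu : Fin m → ℕ) (x n : ℕ) : ℕ := Module.finrank ℂ (QS m mu x n)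

noncomputable def TN (m : ℕ) (mu : Fin m → ℕ) (p q : ℕ) : ℕ := Module.finrank ℂ (TI p q m mu)

/-- **[U]** the part of degree `q + 1` in the last column. -/
def UStmt : Prop := ∀ (m : ℕ) (mu : Fin m → ℕ) (p q : ℕ),
  TN m mu (p + 1) (q + 1) ≤ TN m mu (p + 1) q + QN m mu (q + 1) p

/-- **[X]** every element of `QS (q + 1) p` is such a part: anchors `(y - x_i)`. -/
def XStmt : Prop := ∀ (m : ℕ) (mu : Fin m → ℕ) (p q : ℕ), ∑ i, mu i + 3 < 2 * (q + 1) →
  q + 1 ≤ 3 * p → TN m mu (p + 1) q + QN m mu (q + 1) p ≤ TN m mu (p + 1) (q + 1)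

/-- **[S]** stability in the number of points. -/
def SStmt : Prop := ∀ (m : ℕ) (mu : Fin m → ℕ) (x n : ℕ), ∑ i, mu i ≤ x + n →
  QN m mu x (n + 1) = QN m mu x n

/-- **[G]** one more point. -/
def GStmt : Prop := ∀ (m : ℕ) (mu : Fin m → ℕ) (c : ℕ), 1 ≤ c → ∑ i, mu i ≤ 2 * c →
  TN m mu c (∑ i, mu i) + QN m mu (c + 1) (c + 1) ≤ TN m mu (c + 1) (∑ i, mu i)

/-- The last point becomes the mean of the others. -/
noncomputable def rs (m c : ℕ) :
    MvPolynomial (Fin m × Fin (c + 1)) ℂ →ₐ[ℂ] MvPolynomial (Fin m × Fin c) ℂ :=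
  aeval fun p => Fin.lastCases (motive := fun _ => MvPolynomial (Fin m × Fin c) ℂ)
    (C ((c : ℂ)⁻¹) * ∑ j, X (p.1, j)) (fun j => X (p.1, j)) p.2

/-- **[G1]** the restriction `rs` is surjective on translation invariants. -/
def LiftStmt : Prop := ∀ (m : ℕ) (mu : Fin m → ℕ) (c : ℕ), 1 ≤ c →
  ∀ h ∈ TI c (∑ i, mu i) m mu, ∃ F ∈ TI (c + 1) (∑ i, mu i) m mu, rs m c F = h

/-- **[G2]** the embedding of `QS (c + 1) (c + 1)` into the kernel of `rs`:
`g ↦ ∏_i ((x_i - mean) · ∂_z) g`. -/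
def PsiStmt : Prop := ∀ (m : ℕ) (mu : Fin m → ℕ) (c : ℕ), 1 ≤ c → ∑ i, mu i ≤ 2 * c →
  ∃ P : MvPolynomial (Fin m × (Unit ⊕ Fin (c + 1))) ℂ →ₗ[ℂ] MvPolynomial (Fin m × Fin (c + 1)) ℂ,
    ∀ g ∈ QS m mu (c + 1) (c + 1), P g ∈ TI (c + 1) (∑ i, mu i) m mu ∧ rs m c (P g) = 0 ∧
      (P g = 0 → g = 0)

/-- The product of the operators `x_j · ∂_z` over a list of columns. -/
noncomputable def opL {m : ℕ} {τ : Type} [DecidableEq τ] (z : τ) (l : List τ) (g : MvPolynomial (Fin m × τ) ℂ) :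
    MvPolynomial (Fin m × τ) ℂ := l.foldr (fun x h => colD x z h) g

/-- **[G3]** the core: `(∑ x_j · ∂_z) ∏ (x_j · ∂_z)` is injective on the polynomials of degree
`c + 1` in `z` and at most `c - 1` in all `x_j`. -/
def InjStmt : Prop := ∀ (m c : ℕ) (g : MvPolynomial (Fin m × (Unit ⊕ Fin c)) ℂ), 1 ≤ c →
  (∀ v, coeff v g ≠ 0 → ∑ i, v (i, Sum.inl ()) = c + 1 ∧
    ∑ j : Fin c, ∑ i, v (i, Sum.inr j) + 1 ≤ c) →
  ∑ j : Fin c, colD (Sum.inr j) (Sum.inl ())
    (opL (Sum.inl ()) ((List.finRange c).map Sum.inr) g) = 0 → g = 0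

/-- The final theorem. -/
def NearS : Prop := ∀ (a b n : ℕ) (lam : Fin n → ℕ), a ≤ b → dn lam 1 ≤ 2 * a →
  plethMult a b n lam ≤ plethMult b a n lam

end Vale.Agent.P181.NS
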